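import Mathlib
import Crest.Agent.H18.Quadric4

/-!
Fixed lines of the time-one map: necessary conditions.
-/

set_option autoImplicit false

namespace Crest.Agent.H18.Quadric

open Crest.GeometryTopology.Quadric

theorem cos_be : Real.cos be = 4 / 5 := Real.cos_arccos (by norm_num) (by norm_num)

theorem sin_be : Real.sin be = 3 / 5 := by
  unfold be
  rw [Real.sin_arccos]
  rw [show (1 - (4 / 5 : ℝ) ^ 2) = (3 / 5) ^ 2 by norm_num]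
  exact Real.sqrt_sq (by norm_num)

theorem cos_al : Real.cos al = -(4 / 5) := by
  unfold al; rw [Real.cos_add_pi, cos_be]

theorem sin_al : Real.sin al = -(3 / 5) := by
  unfold al; rw [Real.sin_add_pi, sin_be]

theorem gp1 : gp 1 = -(16 / 25) := by
  unfold gp; rw [mul_one, mul_one, cos_al, cos_be]; norm_num
theorem gq1 : gq 1 = -(12 / 25) := by
  unfold gq; rw [mul_one, mul_one, sin_al, cos_be]; norm_num
theorem gu1 : gu 1 = -(12 / 25) := by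
  unfold gu; rw [mul_one, mul_one, cos_al, sin_be]; norm_num
theorem gv1 : gv 1 = -(9 / 25) := by
  unfold gv; rw [mul_one, mul_one, sin_al, sin_be]; norm_num

/-- real algebra excluding the eigenvalue one -/
theorem real_alg (u0 u1 u2 u3 a b d D : ℝ) (hD : D = 1 + (15 / 8) ^ 2 * (a ^ 2 + b ^ 2 + d ^ 2))
    (hm : a * u0 + b * u1 + d * u2 = 0)
    (E0 : (2 - D) * u0 + 2 * (15 / 8) * (b * u2 - d * u1) =
      D * (-(16 / 25) * u0 + 12 / 25 * u3 + 12 / 25 * u2 - 9 / 25 * u1))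
    (E1 : (2 - D) * u1 + 2 * (15 / 8) * (d * u0 - a * u2) =
      D * (-(16 / 25) * u1 - 12 / 25 * u2 - 12 / 25 * u3 - 9 / 25 * u0))
    (E2 : (2 - D) * u2 + 2 * (15 / 8) * (a * u1 - b * u0) =
      D * (-(16 / 25) * u2 + 12 / 25 * u1 - 12 / 25 * u0 + 9 / 25 * u3))
    (E3 : D * u3 = D * (-(16 / 25) * u3 - 12 / 25 * u0 + 12 / 25 * u1 + 9 / 25 * u2)) :
    D * (u0 ^ 2 + u1 ^ 2 + u2 ^ 2 + u3 ^ 2) * (8 / 5 - 9 / 8 * (a + b)) = 0 := by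
  -- X = u (1 - tau m), V = (C - S i) X
  subst hD
  linear_combination
    (4 / 5 * (u0 - 15 / 8 * (u3 * a + (u1 * d - u2 * b))) - 3 / 5 * u3) * E0
    + (4 / 5 * (u1 - 15 / 8 * (u3 * b + (u2 * a - u0 * d))) + 3 / 5 * (u2 - 15 / 8 * (u3 * d + (u0 * b - u1 * a)))) * E1
    + (4 / 5 * (u2 - 15 / 8 * (u3 * d + (u0 * b - u1 * a))) - 3 / 5 * (u1 - 15 / 8 * (u3 * b + (u2 * a - u0 * d)))) * E2
    + (4 / 5 * u3 + 3 / 5 * (u0 - 15 / 8 * (u3 * a + (u1 * d - u2 * b)))) * E3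
    + (15 / 8 * (4 / 5 * ((1 + (15 / 8) ^ 2 * (a ^ 2 + b ^ 2 + d ^ 2)) * u3 - (1 + (15 / 8) ^ 2 * (a ^ 2 + b ^ 2 + d ^ 2)) * (-(16 / 25) * u3 - 12 / 25 * u0 + 12 / 25 * u1 + 9 / 25 * u2))
      - 3 / 5 * ((2 - (1 + (15 / 8) ^ 2 * (a ^ 2 + b ^ 2 + d ^ 2))) * u0 + 2 * (15 / 8) * (b * u2 - d * u1) -
      (1 + (15 / 8) ^ 2 * (a ^ 2 + b ^ 2 + d ^ 2)) * (-(16 / 25) * u0 + 12 / 25 * u3 + 12 / 25 * u2 - 9 / 25 * u1)
        + 2 * (15 / 8) ^ 2 * (a * u0 + b * u1 + d * u2) * a))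
      + 2 * (15 / 8) ^ 2 * ((4 / 5 * (u0 - 15 / 8 * (u3 * a + (u1 * d - u2 * b))) - 3 / 5 * u3) * a
        + (4 / 5 * (u1 - 15 / 8 * (u3 * b + (u2 * a - u0 * d))) + 3 / 5 * (u2 - 15 / 8 * (u3 * d + (u0 * b - u1 * a)))) * b
        + (4 / 5 * (u2 - 15 / 8 * (u3 * d + (u0 * b - u1 * a))) - 3 / 5 * (u1 - 15 / 8 * (u3 * b + (u2 * a - u0 * d)))) * d)) * hm

end Crest.Agent.H18.Quadric
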